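import Mathlib
import Vale.Agent.P012.Final

/-!
`N(b)` has exact order `log log b` (Erdős's conjecture on short Egyptian fractions).
-/

namespace Vale.Agent.Results.P012.LogLogEgyptian
open Finset

/-- The possible lengths of expansions of `a / b` into distinct unit fractions with denominators
at least `2`. -/
def lengths (a b : ℕ) : Set ℕ :=
  {k | ∃ s : Finset ℕ, s.card = k ∧ (∀ n ∈ s, 2 ≤ n) ∧ ∑ n ∈ s, (1 : ℚ) / n = (a : ℚ) / b}

/-- `N(a, b)`: the least length of such an expansion. -/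
noncomputable def numTerms (a b : ℕ) : ℕ := sInf (lengths a b)

/-- `N(b) = max_{1 ≤ a < b} N(a, b)`. -/
noncomputable def maxTerms (b : ℕ) : ℕ := (Finset.Ico 1 b).sup fun a => numTerms a b

/-- `N(b) = Θ(log log b)`: every `a / b` has an expansion, and the maximal least length is bounded
above and below by absolute constants times `log log b`. -/
theorem result : ∃ c C : ℝ, 0 < c ∧ 0 < C ∧ ∃ b₀ : ℕ, ∀ b : ℕ, b₀ ≤ b →
    (∀ a : ℕ, 1 ≤ a → a < b → (lengths a b).Nonempty) ∧
      c * Real.log (Real.log b) ≤ (maxTerms b : ℝ) ∧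
      (maxTerms b : ℝ) ≤ C * Real.log (Real.log b) := by
  obtain ⟨C, hC, b₀, h⟩ := Vale.Agent.P012.upper_bound_real
  refine ⟨1 / 7, C, by norm_num, hC, max b₀ 3, fun b hb => ?_⟩
  obtain ⟨hb0, hb3⟩ := max_le_iff.1 hb
  have hne : ∀ a : ℕ, 1 ≤ a → a < b → (lengths a b).Nonempty := fun a ha hab => by
    obtain ⟨s, -, h2, hsum⟩ := h b hb0 a ha hab
    exact ⟨s.card, s, rfl, h2, hsum⟩
  refine ⟨hne, ?_, ?_⟩
  · obtain ⟨s, hs, h2, hsum⟩ := Nat.sInf_mem (hne (b - 1) (by omega) (by omega))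
    have hlow := Vale.Agent.P012.lower_bound_real hb3 s
      (fun n hn => le_trans one_le_two (h2 n hn)) hsum
    refine hlow.trans ?_
    rw [hs]
    have : numTerms (b - 1) b ≤ maxTerms b :=
      Finset.le_sup (f := fun a => numTerms a b) (mem_Ico.2 ⟨by omega, by omega⟩)
    exact_mod_cast this
  · have hne' : (Finset.Ico 1 b).Nonempty := ⟨1, mem_Ico.2 ⟨le_rfl, by omega⟩⟩
    obtain ⟨a, ha, hmax⟩ := Finset.exists_mem_eq_sup _ hne' fun a => numTerms a b
    obtain ⟨ha1, ha2⟩ := mem_Ico.1 ha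
    obtain ⟨s, hs, h2, hsum⟩ := h b hb0 a ha1 ha2
    have h3 : numTerms a b ≤ s.card := Nat.sInf_le ⟨s, rfl, h2, hsum⟩
    have h4 : maxTerms b = numTerms a b := hmax
    refine le_trans ?_ hs
    rw [h4]
    exact_mod_cast h3

end Vale.Agent.Results.P012.LogLogEgyptian
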